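import Vale.Agent.P366Z.Stb.Sk
import Vale.Agent.P366Z.Asy

/-!
# P366Z, block STAB: the inequality of Hardy outside a ball
-/

open MeasureTheory Metric Filter Topology Set
open scoped ContDiff ENNReal
open Vale.Agent.P366.Stmt

noncomputable section

namespace Vale.Agent.P366Z.Stb

namespace Hd

variable {n : ℕ} {w : E n → ℝ} {φ : ℝ → ℝ}

theorem prof {a : ℝ} (ha : 0 < a) : ∃ φ : ℝ → ℝ, ContDiff ℝ ∞ φ ∧ ∀ s, 0 ≤ s → 0 ≤ φ s ∧
    s * φ s ≤ 1 ∧ (s < 1 → φ s = 0) ∧ (1 + a ≤ s → s * φ s = 1) ∧ 0 ≤ φ s + s * deriv φ s := by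
  let z := fun s : ℝ => Real.smoothTransition ((s - 1) / a)
  have h1 : ContDiff ℝ ∞ z := Real.smoothTransition.contDiff.comp (by fun_prop)
  have h2 : ∀ s < 1, z s = 0 := fun s hs => Real.smoothTransition.zero_of_nonpos
    (div_nonpos_of_nonpos_of_nonneg (by linarith) ha.le)
  have h3 : ContDiff ℝ ∞ fun s => z s * s⁻¹ := contDiff_iff_contDiffAt.2 fun s => by
    rcases eq_or_ne s 0 with rfl | hs
    · exact (contDiffAt_const (c := 0)).congr_of_eventuallyEq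
        ((gt_mem_nhds one_pos).mono fun t ht => by simp only [h2 t ht, zero_mul])
    · exact h1.contDiffAt.mul (contDiffAt_inv ℝ hs)
  have h4 : ∀ s, s * (z s * s⁻¹) = z s := fun s => by
    rcases eq_or_ne s 0 with rfl | hs
    · rw [zero_mul, h2 0 one_pos]
    · field_simp
  refine ⟨_, h3, fun s hs => ⟨mul_nonneg (Real.smoothTransition.nonneg _) (inv_nonneg.2 hs),
    (h4 s).trans_le (Real.smoothTransition.le_one _), fun h => by simp only [h2 s h, zero_mul],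
    fun h => (h4 s).trans (Real.smoothTransition.one_of_one_le
      ((one_le_div ha).2 (by linarith))), ?_⟩⟩
  have h5 := ((hasDerivAt_id' s).fun_mul (h3.differentiable (by simp) s).hasDerivAt).deriv
  rw [one_mul, funext h4] at h5
  exact h5 ▸ Monotone.deriv_nonneg fun s t hst => Real.smoothTransition.monotone (by gcongr)

theorem div (hw : Smooth w) (hφ : ContDiff ℝ ∞ φ) (x : E n) :
    ∑ i, pd i (fun y => w y ^ 2 * φ (‖y‖ ^ 2) * y i) x = w x ^ 2 * (n * φ (‖x‖ ^ 2) +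
      2 * (‖x‖ ^ 2 * deriv φ (‖x‖ ^ 2))) + 2 * w x * φ (‖x‖ ^ 2) * fderiv ℝ w x x := by
  have h1 : DifferentiableAt ℝ (fun y : E n => ‖y‖ ^ 2) x :=
    (contDiff_normSq (m := 1)).differentiable one_ne_zero x
  have h2 := hφ.differentiable (by simp) (‖x‖ ^ 2)
  have h3 : DifferentiableAt ℝ (fun y : E n => φ (‖y‖ ^ 2)) x := h2.comp x h1
  have h4 : ∀ i, pd i (fun y => w y ^ 2 * φ (‖y‖ ^ 2) * y i) x = w x ^ 2 * φ (‖x‖ ^ 2) +
      2 * w x ^ 2 * deriv φ (‖x‖ ^ 2) * x i ^ 2 + 2 * w x * φ (‖x‖ ^ 2) * (x i * pd i w x) :=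
    fun i => by
      rw [pd_mul (((hw.diff x).fun_pow 2).fun_mul h3)
        ((contDiff_coord (m := 1) i).differentiable one_ne_zero x),
        pd_mul ((hw.diff x).fun_pow 2) h3, pd_pow (hw.diff x), pd_comp h2.hasDerivAt h1, pd_normSq,
        pd_coord, if_pos rfl]
      ring
  simp only [h4, Finset.sum_add_distrib, ← Finset.mul_sum, ← norm_sq_eq, Finset.sum_const,
    Finset.card_univ, Fintype.card_fin, nsmul_eq_mul, ← fderiv_eq_sum (hw.diff x)]
  ring

end Hd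

open Hd in
theorem hd0 : HD := by
  intro n δ M hn hδ
  refine ⟨4 * M ^ 2 + 1, by positivity, fun w e hw he ⟨A, R, hA⟩ h => ?_⟩
  obtain ⟨φ, h1, h2⟩ := prof (a := (1 + δ) ^ 2 - 1) (by nlinarith)
  have h3 : ∀ i, Smooth fun y : E n => w y ^ 2 * φ (‖y‖ ^ 2) * y i := fun i =>
    ((ContDiff.pow hw 2).mul (h1.comp contDiff_normSq)).mul (contDiff_coord i)
  have h4 := flux n _ 0 hn h3 ⟨A ^ 2, max R 1, fun x hx i => by
    have k1 := (le_max_right _ _).trans hx
    have k2 : 0 < ‖x‖ := by linarith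
    have k3 := h2 _ (sq_nonneg ‖x‖)
    have k4 : |x i| ≤ ‖x‖ := PiLp.norm_apply_le x i
    have k5 : (‖x‖ ^ (2 - n : ℝ)) ^ 2 * (φ (‖x‖ ^ 2) * |x i|) ≤ ‖x‖ ^ (-n : ℝ) := by
      have m1 : φ (‖x‖ ^ 2) * |x i| * ‖x‖ ≤ 1 := by
        nlinarith [mul_le_mul_of_nonneg_left k4 (mul_nonneg k3.1 k2.le), k3.2.1]
      have m2 : (‖x‖ ^ (2 - n : ℝ)) ^ 2 ≤ ‖x‖ ^ (-n : ℝ) * ‖x‖ := by
        rw [← Real.rpow_natCast, ← Real.rpow_mul k2.le, ← Real.rpow_add_one k2.ne']
        have : (3 : ℝ) ≤ n := by exact_mod_cast hn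
        exact Real.rpow_le_rpow_of_exponent_le k1 (by push_cast; linarith)
      nlinarith [mul_le_mul_of_nonneg_right m2 (mul_nonneg k3.1 (abs_nonneg (x i))),
        mul_le_mul_of_nonneg_left m1 (Real.rpow_nonneg k2.le (-n : ℝ))]
    have k6 := pow_le_pow_left₀ (abs_nonneg _) (hA x ((le_max_left _ _).trans hx)) 2
    rw [zero_mul, zero_mul, sub_zero, abs_mul, abs_mul, abs_pow, abs_of_nonneg k3.1, mul_assoc]
    refine (mul_le_mul_of_nonneg_right k6 (mul_nonneg k3.1 (abs_nonneg _))).trans ?_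
    rw [mul_pow, mul_assoc]
    exact mul_le_mul_of_nonneg_left k5 (sq_nonneg A)⟩
  have h5 : MeasurableSet {x : E n | 1 ≤ ‖x‖} := measurableSet_le measurable_const measurable_norm
  have h6 : AEStronglyMeasurable (fun x => ‖fderiv ℝ w x‖ ^ 2)
      (volume.restrict {x : E n | 1 ≤ ‖x‖}) :=
    ((ContDiff.continuous_fderiv hw (by simp)).norm.pow 2).aestronglyMeasurable
  have h7 := (lintegral_ofReal_ne_top_iff_integrable h6 (.of_forall fun x => sq_nonneg _)).1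
    (ne_top_of_le_ne_top ENNReal.ofReal_ne_top h)
  have h8 : ∫ x in {x : E n | 1 ≤ ‖x‖}, ‖fderiv ℝ w x‖ ^ 2 ≤ e := by
    rw [integral_eq_lintegral_of_nonneg_ae (.of_forall fun x => sq_nonneg _) h6]
    exact ENNReal.toReal_le_of_le_ofReal he h
  have h9 : MeasurableSet (sh n (1 + δ) M) := (measurableSet_le measurable_const
    measurable_norm).inter (measurableSet_le measurable_norm measurable_const)
  refine le_trans (ge_of_tendsto ((h4.const_mul (2 * M ^ 2)).add_const (4 * M ^ 2 * e))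
    (((eventually_ge_atTop M).and (eventually_gt_atTop 0)).mono fun r hr => ?_)) (by nlinarith)
  have k1 : Integrable fun x => cut r x * ∑ i, pd i (fun y => w y ^ 2 * φ (‖y‖ ^ 2) * y i) x :=
    integrable_of_out ((sm_cut r).cont.mul (continuous_finsetSum _ fun i _ => ((h3 i).pd i).cont))
      (R := 2 * r) fun y hy => by rw [cut_zero hr.2 hy, zero_mul]
  have k2 := (integrable_indicator_iff h5).2 h7
  refine le_trans ?_ (add_le_add_right (mul_le_mul_of_nonneg_left h8 (by positivity)) _)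
  rw [← integral_indicator h9, ← integral_indicator h5, ← integral_const_mul, ← integral_const_mul,
    ← integral_add (k1.const_mul _) (k2.const_mul _)]
  refine integral_mono_of_nonneg (.of_forall fun x => indicator_nonneg (fun _ _ => sq_nonneg _) x)
    ((k1.const_mul _).add (k2.const_mul _)) (.of_forall fun x => ?_)
  obtain ⟨a1, a2, a3, a4, a5⟩ := h2 _ (sq_nonneg ‖x‖)
  have b1 := cut_nonneg r x
  have b2 : cut r x * (‖x‖ ^ 2 * φ (‖x‖ ^ 2)) * ‖fderiv ℝ w x‖ ^ 2 ≤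
      indicator {x : E n | 1 ≤ ‖x‖} (fun x => ‖fderiv ℝ w x‖ ^ 2) x := by
    by_cases hx : 1 ≤ ‖x‖
    · rw [indicator_of_mem (show x ∈ {x : E n | 1 ≤ ‖x‖} from hx)]
      exact mul_le_of_le_one_left (sq_nonneg _) (mul_le_one₀ (cut_le_one r x) (by positivity) a2)
    · rw [indicator_of_notMem (show x ∉ {x : E n | 1 ≤ ‖x‖} from hx),
        a3 (by nlinarith [norm_nonneg x]), mul_zero, mul_zero, zero_mul]
  have b3 : indicator (sh n (1 + δ) M) (fun x => w x ^ 2) x ≤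
      M ^ 2 * (cut r x * (φ (‖x‖ ^ 2) * w x ^ 2)) := by
    by_cases hx : x ∈ sh n (1 + δ) M
    · rw [indicator_of_mem hx, cut_one (hx.2.trans hr.1), one_mul, ← mul_assoc]
      refine le_mul_of_one_le_left (sq_nonneg _) ?_
      rw [← a4 (by nlinarith [hx.1])]
      exact mul_le_mul_of_nonneg_right (pow_le_pow_left₀ (norm_nonneg _) hx.2 2) a1
    · rw [indicator_of_notMem hx]
      positivity
  have b4 : fderiv ℝ w x x ^ 2 ≤ ‖x‖ ^ 2 * ‖fderiv ℝ w x‖ ^ 2 := by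
    rw [← mul_pow, mul_comm, ← sq_abs]
    exact pow_le_pow_left₀ (abs_nonneg _) ((fderiv ℝ w x).le_opNorm x) 2
  have b5 : φ (‖x‖ ^ 2) * w x ^ 2 / 2 - 2 * (‖x‖ ^ 2 * φ (‖x‖ ^ 2) * ‖fderiv ℝ w x‖ ^ 2) ≤
      ∑ i, pd i (fun y => w y ^ 2 * φ (‖y‖ ^ 2) * y i) x := by
    have c1 : (3 : ℝ) ≤ n := by exact_mod_cast hn
    rw [div hw h1]
    nlinarith [mul_nonneg (sq_nonneg (w x)) a5, mul_le_mul_of_nonneg_left b4 a1,
      mul_nonneg a1 (sq_nonneg (w x + 2 * fderiv ℝ w x x)),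
      mul_nonneg (mul_nonneg (sq_nonneg (w x)) a1) (sub_nonneg.2 c1)]
  beta_reduce
  nlinarith [mul_le_mul_of_nonneg_left (mul_le_mul_of_nonneg_left b5 b1) (sq_nonneg M),
    mul_le_mul_of_nonneg_left b2 (sq_nonneg M)]

end Vale.Agent.P366Z.Stb
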