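import Vale.Agent.P366Z.Stb.Sk

/-!
# P366Z, block STAB: the pointwise identities
-/

open MeasureTheory Metric Filter Topology Set
open scoped ContDiff ENNReal
open Vale.Agent.P366.Stmt

noncomputable section

namespace Vale.Agent.P366Z.Stb

namespace PtH

variable {n N : ℕ} (c : Cl n N) {v : E n → ℝ} {y : E n → E N}

theorem inner_ee (i j : Fin n) (s : E N) :
    inner ℝ s (c.e i (c.e j s)) = if i = j then -‖s‖ ^ 2 else 0 := by
  have h1 := congrArg (inner ℝ s) (c.rel i j s)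
  have h2 := c.skew i s (c.e j s)
  have h3 := c.skew j s (c.e i s)
  rw [real_inner_comm] at h3
  rw [inner_add_right] at h1
  split_ifs at h1 ⊢
  · rw [inner_smul_right, real_inner_self_eq_norm_sq] at h1
    linarith
  · rw [inner_zero_right] at h1
    linarith

theorem norm_e (j : Fin n) (s : E N) : ‖c.e j s‖ = ‖s‖ := by
  have h1 := c.skew j s (c.e j s)
  rw [inner_ee, if_pos rfl, neg_neg, real_inner_self_eq_norm_sq] at h1
  exact (pow_left_inj₀ (norm_nonneg _) (norm_nonneg _) two_ne_zero).1 h1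

theorem sm_ss (hv : Smooth v) (h0 : ∀ x, 0 < v x) (hy : ContDiff ℝ ∞ y) : ContDiff ℝ ∞ (ss v y) :=
  ContDiff.smul (hv.rpow h0 _) hy

theorem m_pos (hn : 3 ≤ n) : (1 : ℝ) ≤ (n : ℝ) - 2 := by
  have : (3 : ℝ) ≤ n := by exact_mod_cast hn
  linarith

theorem sm_tt (hn : 3 ≤ n) (hv : Smooth v) (h0 : ∀ x, 0 < v x) (hy : ContDiff ℝ ∞ y) :
    ContDiff ℝ ∞ (tt c v y) :=
  ContDiff.neg (ContDiff.smul (ContDiff.inv (ContDiff.mul contDiff_const hv) fun x =>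
    (mul_pos (one_pos.trans_le (m_pos hn)) (h0 x)).ne') (ContDiff.sum fun j _ =>
      ContDiff.smul (hv.pd j) ((c.e j).contDiff.comp (sm_ss hv h0 hy))))

theorem sm_q (hv : Smooth v) (h0 : ∀ x, 0 < v x) (hy : ContDiff ℝ ∞ y) :
    Smooth fun x => ‖ss v y x‖ ^ 2 / v x ^ (-bb n) :=
  ContDiff.div ((sm_ss hv h0 hy).norm_sq ℝ) (hv.rpow h0 _) fun x =>
    (Real.rpow_pos_of_pos (h0 x) _).ne'

theorem sm_ww (hv : Smooth v) (h0 : ∀ x, 0 < v x) (hy : ContDiff ℝ ∞ y) : Smooth (ww v y) :=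
  ContDiff.sub (ContDiff.sqrt (ContDiff.add (sm_q hv h0 hy) contDiff_const) fun x => by
    have := h0 x
    positivity) contDiff_const

theorem tw_term (hn : 3 ≤ n) (hv : Smooth v) (h0 : ∀ x, 0 < v x) (hy : ContDiff ℝ ∞ y) (i : Fin n)
    (x : E n) :
    vd i (ss v y) x + c.e i (tt c v y x) = v x ^ (-(n * bb n / 2)) • c.df v y i x := by
  have hm := (one_pos.trans_le (m_pos hn)).ne'
  have h1 := ((hv.rpow h0 (-(n * bb n / 2))).diff x).hasFDerivAt.fun_smul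
    (hy.differentiable (by simp) x).hasFDerivAt
  have h2 : vd i (ss v y) x = v x ^ (-(n * bb n / 2)) • fderiv ℝ y x (EuclideanSpace.single i 1) +
      pd i (fun x => v x ^ (-(n * bb n / 2))) x • y x := by
    rw [pd_eq ((hv.rpow h0 _).diff x)]
    exact congrArg (fun L : E n →L[ℝ] E N => L (EuclideanSpace.single i 1)) h1.fderiv
  have h3 : ∑ j, pd j v x • c.e j (ss v y x) =
      v x ^ (-(n * bb n / 2)) • ∑ j, pd j v x • c.e j (y x) := by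
    rw [Finset.smul_sum]
    exact Finset.sum_congr rfl fun j _ => by rw [ss, map_smul, smul_comm]
  rw [h2, pd_rpow (hv.diff x) (h0 x).ne', Real.rpow_sub_one (h0 x).ne', tt, h3, Cl.df, map_neg,
    map_smul, map_smul]
  generalize v x ^ (-(n * bb n / 2)) = P
  have h4 : -(n * bb n / 2) * (P / v x) * pd i v x =
      -(P * ((((n : ℝ) - 2) * v x)⁻¹ * (n * pd i v x))) := by
    have := (h0 x).ne'
    unfold bb
    field_simp
  rw [h4]
  module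

theorem pow_sq (hn : 3 ≤ n) {t : ℝ} (ht : 0 < t) :
    (t ^ (-(n * bb n / 2))) ^ 2 = t ^ (-(2 * gam n)) * t ^ (-bb n) := by
  have hm := (one_pos.trans_le (m_pos hn)).ne'
  rw [sq, ← Real.rpow_add ht, ← Real.rpow_add ht]
  congr 1
  unfold bb gam
  field_simp
  ring

theorem pow_gam (hn : 3 ≤ n) {t : ℝ} (ht : 0 < t) :
    t ^ (-(2 * gam n)) = (t ^ 2)⁻¹ * t ^ (-bb n) := by
  have hm := (one_pos.trans_le (m_pos hn)).ne'
  rw [← Real.rpow_two, ← Real.rpow_neg ht.le, ← Real.rpow_add ht]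
  congr 1
  unfold bb gam
  field_simp
  ring

theorem tw_eq (hn : 3 ≤ n) (hv : Smooth v) (h0 : ∀ x, 0 < v x) (hy : ContDiff ℝ ∞ y) (x : E n) :
    tw c (ss v y) (tt c v y) x =
      v x ^ (-(2 * gam n)) * (v x ^ (-bb n) * ∑ i, ‖c.df v y i x‖ ^ 2) := by
  rw [← mul_assoc, ← pow_sq hn (h0 x), Finset.mul_sum]
  refine Finset.sum_congr rfl fun i _ => ?_
  rw [tw_term c hn hv h0 hy, norm_smul, mul_pow, Real.norm_eq_abs, sq_abs]

theorem pd_q (hn : 3 ≤ n) (hv : Smooth v) (h0 : ∀ x, 0 < v x) (hy : ContDiff ℝ ∞ y) (i : Fin n)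
    (x : E n) : pd i (fun x => ‖ss v y x‖ ^ 2 / v x ^ (-bb n)) x =
      2 * inner ℝ (ss v y x) (vd i (ss v y) x + c.e i (tt c v y x)) / v x ^ (-bb n) := by
  have hm := (one_pos.trans_le (m_pos hn)).ne'
  have hs := (sm_ss hv h0 hy).differentiable (by simp) x
  have h1 : pd i (fun x => ‖ss v y x‖ ^ 2) x = 2 * inner ℝ (ss v y x) (vd i (ss v y) x) := by
    rw [pd_of_hasFDerivAt hs.hasFDerivAt.norm_sq, vd]
    simp
  have h2 : inner ℝ (ss v y x) (c.e i (tt c v y x)) =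
      (((n : ℝ) - 2) * v x)⁻¹ * (pd i v x * ‖ss v y x‖ ^ 2) := by
    rw [tt, map_neg, map_smul, map_sum, inner_neg_right, inner_smul_right, inner_sum]
    simp only [map_smul, inner_smul_right, inner_ee, mul_ite, mul_zero, Finset.sum_ite_eq,
      Finset.mem_univ, if_true]
    ring
  have h3 := (Real.rpow_pos_of_pos (h0 x) (-bb n)).ne'
  rw [pd_div (hs.norm_sq ℝ) ((hv.rpow h0 _).diff x) h3, h1, pd_rpow (hv.diff x) (h0 x).ne',
    Real.rpow_sub_one (h0 x).ne', inner_add_right, h2]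
  generalize v x ^ (-bb n) = u at h3 ⊢
  have := (h0 x).ne'
  unfold bb
  field_simp
  ring

theorem grad_ww (hn : 3 ≤ n) (hv : Smooth v) (h0 : ∀ x, 0 < v x) (hy : ContDiff ℝ ∞ y) (x : E n) :
    ‖fderiv ℝ (ww v y) x‖ ^ 2 ≤ tw c (ss v y) (tt c v y) x / v x ^ (-bb n) := by
  rw [norm_fderiv_sq ((sm_ww hv h0 hy).diff x), tw, Finset.sum_div]
  refine Finset.sum_le_sum fun i _ => ?_
  have hu := Real.rpow_pos_of_pos (h0 x) (-bb n)
  have hq : 0 < ‖ss v y x‖ ^ 2 / v x ^ (-bb n) + 1 := by positivity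
  have h1 := pd_comp (f := fun x => ‖ss v y x‖ ^ 2 / v x ^ (-bb n)) (φ := fun t => √(t + 1) - √2)
    ((((hasDerivAt_id' (‖ss v y x‖ ^ 2 / v x ^ (-bb n))).add_const 1).sqrt hq.ne').sub_const _)
    ((sm_q hv h0 hy).diff x) i
  rw [show pd i (ww v y) x = _ from h1, pd_q c hn hv h0 hy]
  have h2 := real_inner_mul_inner_self_le (ss v y x) (vd i (ss v y) x + c.e i (tt c v y x))
  rw [real_inner_self_eq_norm_sq, real_inner_self_eq_norm_sq] at h2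
  rw [mul_pow, div_pow, div_pow, mul_pow, mul_pow, Real.sq_sqrt hq.le]
  generalize inner ℝ (ss v y x) (vd i (ss v y) x + c.e i (tt c v y x)) = p at h2 ⊢
  have h3 := sq_nonneg ‖vd i (ss v y) x + c.e i (tt c v y x)‖
  have h4 := sq_nonneg ‖ss v y x‖
  generalize ‖vd i (ss v y) x + c.e i (tt c v y x)‖ ^ 2 = a at h2 h3 ⊢
  generalize ‖ss v y x‖ ^ 2 = s at h2 h4 ⊢
  generalize v x ^ (-bb n) = u at hu ⊢
  have h5 : 1 ^ 2 / (2 ^ 2 * (s / u + 1)) * (2 ^ 2 * p ^ 2 / u ^ 2) = p ^ 2 / (s + u) / u := by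
    field_simp
  rw [h5]
  refine div_le_div_of_nonneg_right ((div_le_iff₀ (by positivity)).2 ?_) hu.le
  nlinarith [mul_nonneg h3 hu.le]

theorem norm_tt (hn : 3 ≤ n) (hv : Smooth v) (h0 : ∀ x, 0 < v x) (x : E n) :
    ‖tt c v y x‖ ≤ n * (v x)⁻¹ * ‖fderiv ℝ v x‖ * ‖ss v y x‖ := by
  have h1 : ‖∑ j, pd j v x • c.e j (ss v y x)‖ ≤ n * (‖fderiv ℝ v x‖ * ‖ss v y x‖) := by
    refine (norm_sum_le _ _).trans ((Finset.sum_le_card_nsmul _ _ _ fun j _ => ?_).trans_eq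
      (by rw [Finset.card_univ, Fintype.card_fin, nsmul_eq_mul]))
    rw [norm_smul, norm_e]
    exact mul_le_mul_of_nonneg_right (abs_pd_le (hv.diff x) j) (norm_nonneg _)
  have h2 : ‖(((n : ℝ) - 2) * v x)⁻¹‖ ≤ (v x)⁻¹ := by
    have h3 := le_mul_of_one_le_left (h0 x).le (m_pos hn)
    rw [Real.norm_of_nonneg (inv_nonneg.2 ((h0 x).le.trans h3))]
    exact inv_anti₀ (h0 x) h3
  rw [tt, norm_neg, norm_smul]
  exact (mul_le_mul h2 h1 (norm_nonneg _) (inv_nonneg.2 (h0 x).le)).trans_eq (by ring)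

theorem norm_ss (h0 : ∀ x, 0 < v x) (x : E n) :
    ‖ss v y x‖ ^ 2 = v x ^ (-bb n) * (1 + ww v y x ^ 2 + 2 * √2 * ww v y x) := by
  have hu := Real.rpow_pos_of_pos (h0 x) (-bb n)
  have h1 := Real.sq_sqrt (show 0 ≤ ‖ss v y x‖ ^ 2 / v x ^ (-bb n) + 1 by positivity)
  have h2 := Real.sq_sqrt (show (0 : ℝ) ≤ 2 by norm_num)
  have h3 : 1 + ww v y x ^ 2 + 2 * √2 * ww v y x = ‖ss v y x‖ ^ 2 / v x ^ (-bb n) := by
    unfold ww
    linear_combination h1 - h2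
  rw [h3, mul_div_cancel₀ _ hu.ne']

theorem far (hn : 3 ≤ n) (h0 : ∀ x, 0 < v x) {β : ℝ} {y₀ : E N} (ha : Asy v 1 β) (h1 : ‖y₀‖ = 1)
    {R' : ℝ} (h2 : ∀ x, R' ≤ ‖x‖ → y x = y₀) :
    ∃ A R : ℝ, ∀ x, R ≤ ‖x‖ → |ww v y x| ≤ A * ‖x‖ ^ (2 - n : ℝ) := by
  obtain ⟨C, R, h3⟩ := ha
  have h4 : DifferentiableAt ℝ (fun t : ℝ => √(t ^ (-(2 * gam n)) + 1)) 1 :=
    ((differentiableAt_id.rpow_const (.inl one_ne_zero)).add_const 1).sqrt (by simp)
  obtain ⟨K, hK, h5⟩ := h4.isBigO_sub.exists_pos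
  obtain ⟨ε, hε, h6⟩ := Metric.eventually_nhds_iff.1 h5.bound
  refine ⟨K * (|β| + |C|), max (max R R') (max 1 ((|β| + |C|) / ε + 1)), fun x hx => ?_⟩
  simp only [max_le_iff] at hx
  obtain ⟨⟨k1, k2⟩, k3, k4⟩ := hx
  have k5 : ‖x‖ ^ (1 - n : ℝ) ≤ ‖x‖ ^ (2 - n : ℝ) :=
    Real.rpow_le_rpow_of_exponent_le k3 (by linarith)
  have k6 : ‖x‖ ^ (2 - n : ℝ) ≤ ‖x‖⁻¹ := by
    rw [← Real.rpow_neg_one]
    exact Real.rpow_le_rpow_of_exponent_le k3 (by linarith [m_pos hn])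
  have k0 : 0 ≤ ‖x‖ ^ (1 - n : ℝ) := by positivity
  have k7 : |v x - 1| ≤ (|β| + |C|) * ‖x‖ ^ (2 - n : ℝ) := by
    have k8 := abs_le.1 (h3 x k1).1
    have k9 : C * ‖x‖ ^ (1 - n : ℝ) ≤ |C| * ‖x‖ ^ (2 - n : ℝ) :=
      mul_le_mul (le_abs_self C) k5 k0 (abs_nonneg C)
    have k10 := mul_le_mul_of_nonneg_right (le_abs_self β) (k0.trans k5)
    have k11 := mul_le_mul_of_nonneg_right (neg_abs_le β) (k0.trans k5)
    rw [abs_le]
    constructor <;> linarith [k8.1, k8.2]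
  have k8 : dist (v x) 1 < ε := by
    refine k7.trans_lt ((mul_le_mul_of_nonneg_left k6 (by positivity)).trans_lt ?_)
    rw [← div_eq_mul_inv, div_lt_iff₀ (by linarith), mul_comm, ← div_lt_iff₀ hε]
    linarith
  have k9 := h6 k8
  rw [Real.one_rpow, one_add_one_eq_two] at k9
  have k10 : ‖ss v y x‖ ^ 2 / v x ^ (-bb n) = v x ^ (-(2 * gam n)) := by
    rw [ss, h2 x k2, norm_smul, h1, mul_one, Real.norm_eq_abs, sq_abs, pow_sq hn (h0 x),
      mul_div_cancel_right₀ _ (Real.rpow_pos_of_pos (h0 x) _).ne']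
  rw [ww, k10, mul_assoc]
  exact k9.trans (mul_le_mul_of_nonneg_left k7 hK.le)

end PtH

open PtH

/-- **PT** -/
theorem pt0 : PT := fun n N c v y hn hv h0 hy =>
  ⟨sm_ss hv h0 hy, sm_tt c hn hv h0 hy, sm_ww hv h0 hy, fun x => ⟨tw_eq c hn hv h0 hy x,
    (grad_ww c hn hv h0 hy x).trans_eq (by
      rw [tw_eq c hn hv h0 hy, pow_gam hn (h0 x), mul_right_comm,
        mul_div_cancel_right₀ _ (Real.rpow_pos_of_pos (h0 x) _).ne']),
    norm_tt c hn hv h0 x, norm_ss h0 x⟩, fun _ _ ha h1 ⟨_, h2⟩ => far hn h0 ha h1 h2⟩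

end Vale.Agent.P366Z.Stb
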