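import Vale.Agent.P366Z.Stb.Sk

/-!
# P366Z, block STAB: the test function of a rectangle
-/

open MeasureTheory Metric Filter Topology Set
open scoped ContDiff
open Vale.Agent.P366.Stmt

noncomputable section

namespace Vale.Agent.P366Z.Stb

namespace Rc

variable {n : ℕ} {p q : Fin n}

theorem ramp {e : ℝ} (he : 0 < e) : ∃ H : ℝ → ℝ, ContDiff ℝ ∞ H ∧ (∀ t, 0 ≤ deriv H t) ∧
    (∃ t, deriv H t ≠ 0) ∧ (∀ t, deriv H t ≠ 0 → |t| ≤ e) ∧ (∀ t ≤ 0, H t = 0) ∧
    ∀ t, e ≤ t → H t = 1 := by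
  have h0 : ∀ t ≤ 0, Real.smoothTransition (t / e) = 0 := fun t ht =>
    Real.smoothTransition.zero_of_nonpos (div_nonpos_of_nonpos_of_nonneg ht he.le)
  have h1 : ∀ t, e ≤ t → Real.smoothTransition (t / e) = 1 := fun t ht =>
    Real.smoothTransition.one_of_one_le ((one_le_div he).2 ht)
  have h2 : ContDiff ℝ ∞ fun t => Real.smoothTransition (t / e) :=
    Real.smoothTransition.contDiff.comp (contDiff_id.div_const e)
  refine ⟨_, h2, fun t => Monotone.deriv_nonneg (Real.smoothTransition.monotone.comp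
    fun a b h => div_le_div_of_nonneg_right h he.le), ?_, fun t ht => of_not_not fun k => ht ?_,
    h0, h1⟩
  · obtain ⟨t, -, ht⟩ := exists_deriv_eq_slope _ he h2.continuous.continuousOn
      (h2.differentiable (by simp)).differentiableOn
    exact ⟨t, by rw [ht, h0 0 le_rfl, h1 e le_rfl]; simpa using he.ne'⟩
  · rcases lt_abs.1 (not_le.1 k) with k | k
    · rw [EventuallyEq.deriv_eq ((lt_mem_nhds k).mono fun s hs => h1 s hs.le), deriv_const]
    · rw [EventuallyEq.deriv_eq ((gt_mem_nhds (show t < 0 by linarith)).mono fun s hs =>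
        h0 s hs.le), deriv_const]

theorem pd_sep {F : E n → ℝ} (G : ℝ → ℝ)
    (hF : ∀ z (t : ℝ), F (z + t • EuclideanSpace.single q 1) = F z) :
    pd q (fun z => F z * G (z q)) = fun z => F z * deriv G (z q) := funext fun z => by
  simp only [pd, lineDeriv, hF, deriv_const_mul_field', PiLp.add_apply, PiLp.smul_apply,
    PiLp.single_apply, if_true, smul_eq_mul, mul_one, deriv_comp_const_add, add_zero]

variable (p q) in
/-- the corners -/
def vv (α β : ℝ) : E n := EuclideanSpace.single p α + EuclideanSpace.single q β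

theorem norm_vv (h : p ≠ q) (α β : ℝ) (x : E n) :
    ‖x + vv p q α β‖ ^ 2 = ‖x‖ ^ 2 + 2 * (α * x p + β * x q) + (α ^ 2 + β ^ 2) := by
  rw [norm_add_sq_real, vv, norm_add_sq_real, inner_add_right]
  simp [EuclideanSpace.inner_single_right, h]

theorem one (h : p ≠ q) {e : ℝ} (he : 0 < e) : ∃ ρ : E n → ℝ, Continuous ρ ∧ (∀ z, 0 ≤ ρ z) ∧
    ∫ z, ρ z = 1 ∧ (∀ z, ρ z ≠ 0 → ‖z‖ ≤ e) ∧ ∀ a b : ℝ, ∃ Φ : E n → ℝ, Smooth Φ ∧
      (∀ z, Φ z ≠ 0 → ∃ α β : ℝ, (0 ≤ α * a ∧ |α| ≤ |a|) ∧ (0 ≤ β * b ∧ |β| ≤ |b|) ∧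
        ‖z - vv p q α β‖ ≤ e) ∧ ∀ z, pd p (pd q Φ) z = ρ (z - vv p q 0 0) - ρ (z - vv p q a 0) -
          ρ (z - vv p q 0 b) + ρ (z - vv p q a b) := by
  have hn : (1 : ℝ) ≤ n := Nat.one_le_cast.2 p.pos
  obtain ⟨H, h1, h2, ⟨t₀, h3⟩, h4, h5, h6⟩ := ramp (show 0 < e / n by positivity)
  have h7 := (contDiff_infty_iff_deriv.1 h1).2
  have h8 : ∀ z : E n, (∀ k, |z k| ≤ e / n) → ‖z‖ ≤ e := fun z hz =>
    (sq_le_sq₀ (norm_nonneg _) he.le).1 (by
      rw [norm_sq_eq]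
      refine (Finset.sum_le_card_nsmul _ _ ((e / n) ^ 2) fun k _ =>
        sq_le_sq' (abs_le.1 (hz k)).1 (abs_le.1 (hz k)).2).trans ?_
      rw [Finset.card_univ, Fintype.card_fin, nsmul_eq_mul, div_pow, sq (n : ℝ), ← div_div,
        mul_div_cancel₀ _ (by positivity)]
      exact div_le_self (sq_nonneg e) hn)
  have c1 : Continuous fun z : E n => ∏ k, deriv H (z k) :=
    continuous_finsetProd _ fun k _ => h7.continuous.comp (contDiff_coord (m := 0) k).continuous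
  have s1 : ∀ z : E n, ∏ k, deriv H (z k) ≠ 0 → ‖z‖ ≤ e := fun z hz =>
    h8 z fun k => h4 _ (Finset.prod_ne_zero_iff.1 hz k (Finset.mem_univ k))
  have p1 : ∀ z : E n, 0 ≤ ∏ k, deriv H (z k) := fun z => Finset.prod_nonneg fun k _ => h2 _
  have hc : 0 < ∫ z : E n, ∏ k, deriv H (z k) :=
    c1.integral_pos_of_hasCompactSupport_nonneg_nonzero (x := WithLp.toLp 2 fun _ => t₀)
      (supp_of_out (R := e + 1) fun z hz => of_not_not fun k => by linarith [s1 z k]) p1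
      (Finset.prod_ne_zero_iff.2 fun _ _ => h3)
  set c := ∫ z : E n, ∏ k, deriv H (z k)
  set W : E n → ℝ := fun z => c⁻¹ * ∏ k ∈ (Finset.univ.erase p).erase q, deriv H (z k) with hW
  have w1 : ∀ z v : E n, (∀ k, k ≠ p → k ≠ q → v k = 0) → W (z + v) = W z := fun z v hv =>
    congrArg (c⁻¹ * ·) (Finset.prod_congr rfl fun k hk => by
      simp only [Finset.mem_erase] at hk
      rw [PiLp.add_apply, hv k hk.2.1 hk.1, add_zero])
  have w2 : ∀ (z : E n) α β, c⁻¹ * ∏ k, deriv H ((z - vv p q α β) k) =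
      W z * deriv H (z q - β) * deriv H (z p - α) := fun z α β => by
    rw [← w1 z (-vv p q α β) fun k k1 k2 => by simp [vv, k1, k2], ← sub_eq_add_neg,
      ← Finset.prod_erase_mul _ _ (Finset.mem_univ p), ← Finset.prod_erase_mul _ _
        (Finset.mem_erase.2 ⟨h.symm, Finset.mem_univ q⟩)]
    simp [vv, h, h.symm, hW, mul_assoc]
  have a1 : ∀ a, deriv (fun t => H t - H (t - a)) = fun t => deriv H t - deriv H (t - a) :=
    fun a => funext fun t => by
      have := h1.differentiable (by simp)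
      rw [deriv_fun_sub (this t) (by fun_prop), deriv_comp_sub_const]
  have a2 : ∀ a t, H t - H (t - a) ≠ 0 → ∃ α, (0 ≤ α * a ∧ |α| ≤ |a|) ∧ |t - α| ≤ e / n := by
    intro a t k
    have k1 : ¬ (t ≤ 0 ∧ t - a ≤ 0) := fun j => k (by rw [h5 _ j.1, h5 _ j.2, sub_self])
    have k2 : ¬ (e / n ≤ t ∧ e / n ≤ t - a) := fun j => k (by rw [h6 _ j.1, h6 _ j.2, sub_self])
    have k3 : 0 < e / n := by positivity
    rcases le_total 0 a with ha | ha
    · have k4 : 0 ≤ min t a := le_min (by grind) ha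
      exact ⟨min t a, ⟨mul_nonneg k4 ha, abs_le_abs_of_nonneg k4 (min_le_right _ _)⟩, by grind⟩
    · exact ⟨min t 0, ⟨mul_nonneg_of_nonpos_of_nonpos (min_le_right _ _) ha, by grind⟩, by grind⟩
  refine ⟨fun z => c⁻¹ * ∏ k, deriv H (z k), continuous_const.mul c1,
    fun z => mul_nonneg (inv_nonneg.2 hc.le) (p1 z), by
      rw [integral_const_mul, inv_mul_cancel₀ hc.ne'],
    fun z hz => s1 z (right_ne_zero_of_mul hz), fun a b =>
      ⟨fun z => W z * (H (z p) - H (z p - a)) * (H (z q) - H (z q - b)), ?_, fun z hz => ?_,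
        fun z => ?_⟩⟩
  · have k : ∀ k a, ContDiff ℝ ∞ fun z : E n => H (z k) - H (z k - a) := fun k a =>
      (h1.comp (contDiff_coord k)).sub (h1.comp ((contDiff_coord k).sub contDiff_const))
    exact ((contDiff_const.mul (contDiff_prod fun k _ => h7.comp (contDiff_coord k))).mul
      (k p a)).mul (k q b)
  · obtain ⟨α, k1, k2⟩ := a2 _ _ (right_ne_zero_of_mul (left_ne_zero_of_mul hz))
    obtain ⟨β, k3, k4⟩ := a2 _ _ (right_ne_zero_of_mul hz)
    refine ⟨α, β, k1, k3, h8 _ fun k => ?_⟩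
    rcases eq_or_ne k p with rfl | kp
    · simpa [vv, h] using k2
    rcases eq_or_ne k q with rfl | kq
    · simpa [vv, kp] using k4
    simpa [vv, kp, kq] using h4 _ (Finset.prod_ne_zero_iff.1 (right_ne_zero_of_mul
      (left_ne_zero_of_mul (left_ne_zero_of_mul hz))) k (by simp [kp, kq]))
  · rw [pd_sep (fun t => H t - H (t - b)) fun z t => by
      rw [w1 z _ fun k _ k2 => by simp [k2]]
      simp [h]]
    simp only [mul_right_comm (W _) (H _ - H _)]
    rw [pd_sep (fun t => H t - H (t - a)) fun z t => by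
      rw [w1 z _ fun k k1 _ => by simp [k1]]
      simp [h.symm]]
    simp only [w2, a1, sub_zero]
    ring

theorem avg {ρ u : E n → ℝ} {e k η : ℝ} (h1 : Continuous ρ) (h2 : ∀ z, 0 ≤ ρ z) (h3 : ∫ z, ρ z = 1)
    (h4 : ∀ z, ρ z ≠ 0 → ‖z‖ ≤ e) (hu : Continuous u) (w : E n) :
    (Integrable fun y => u y * ρ (y - w)) ∧ ((∀ y, ‖y - w‖ ≤ e → |u y - k| ≤ η) →
      |(∫ y, u y * ρ (y - w)) - k| ≤ η) := by
  have i1 : ∀ f : E n → ℝ, Continuous f → Integrable fun y => f y * ρ (y - w) := fun f hf =>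
    integrable_of_out (hf.mul (h1.comp (continuous_sub_right w))) (R := e + ‖w‖ + 1) fun y hy =>
      mul_eq_zero_of_right _ (of_not_not fun j => by linarith [h4 _ j, norm_sub_norm_le y w])
  have i2 : ∀ c : ℝ, ∫ y, c * ρ (y - w) = c := fun c => by
    rw [integral_const_mul, integral_sub_right_eq_self ρ w, h3, mul_one]
  refine ⟨i1 u hu, fun h => ?_⟩
  rw [← i2 k, ← integral_sub (i1 u hu) (i1 _ continuous_const), ← i2 η, ← Real.norm_eq_abs]
  refine norm_integral_le_of_norm_le (i1 _ continuous_const) (.of_forall fun y => ?_)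
  rw [← sub_mul, norm_mul, Real.norm_of_nonneg (h2 _)]
  rcases eq_or_ne (ρ (y - w)) 0 with j | j
  · rw [j, mul_zero, mul_zero]
  · exact mul_le_mul_of_nonneg_right (h y (h4 _ j)) (h2 _)

theorem fin4 {u a b c d η : ℝ} (h1 : -η ≤ a - u ∧ a - u ≤ η) (h2 : -η ≤ b - 1 ∧ b - 1 ≤ η)
    (h3 : -η ≤ c - 1 ∧ c - 1 ≤ η) (h4 : -η ≤ d - 1 ∧ d - 1 ≤ η) :
    |u - 1| ≤ |a - b - c + d| + 4 * η :=
  abs_le.2 ⟨by linarith [neg_abs_le (a - b - c + d), h1.2, h2.1, h3.1, h4.2],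
    by linarith [le_abs_self (a - b - c + d), h1.1, h2.2, h3.2, h4.1]⟩

end Rc

open Rc in
theorem rc0 : RC := by
  intro n p q δ M ε h hδ hM hε
  obtain ⟨e, he, e1, e2, e3⟩ : ∃ e > 0, e ≤ ε ∧ e ≤ δ / 4 ∧ e ≤ 1 / 4 :=
    ⟨min ε (min (δ / 4) (1 / 4)), by positivity, by grind, by grind, by grind⟩
  obtain ⟨ρ, h1, h2, h3, h4, h5⟩ := one h he
  choose Φ f1 f2 f3 using h5
  have g1 : ∀ α β, |α| ≤ M → |β| ≤ M → ‖vv p q α β‖ ≤ 2 * M := fun α β k1 k2 =>
    (norm_add_le _ _).trans (by simp only [PiLp.norm_single, Real.norm_eq_abs]; linarith)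
  have g2 : ∀ a b, |a| = M → |b| = M → ∃ K > 0, ∀ z, |Φ a b z| ≤ K ∧ ‖fderiv ℝ (Φ a b) z‖ ≤ K ∧
      |pd p (pd q (Φ a b)) z| ≤ K := fun a b ha hb => by
    have k0 : ∀ z, 2 * M + e + 1 ≤ ‖z‖ → Φ a b z = 0 := fun z hz => of_not_not fun j => by
      obtain ⟨α, β, k1, k2, k3⟩ := f2 a b z j
      linarith [g1 α β (ha ▸ k1.2) (hb ▸ k2.2), norm_sub_norm_le z (vv p q α β)]
    obtain ⟨K, k1, k2⟩ := bdd_of_const (f1 a b) fun z hz => k0 z hz.le
    obtain ⟨K', -, k3⟩ := bdd_of_const (((f1 a b).pd q).pd p) (R := 2 * M + e + 2) fun z hz =>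
      pd_zero_of_out (R := 2 * M + e + 2) (fun y hy => pd_zero_of_out k0 (by linarith) q) hz p
    exact ⟨max K K', lt_max_of_lt_left k1, fun z => ⟨le_max_of_le_left (k2 z).1,
      le_max_of_le_left (k2 z).2, le_max_of_le_right (k3 z).1⟩⟩
  have hM' : ∀ s : Bool, |if s then M else -M| = M := fun s => by
    cases s <;> simp [abs_of_nonneg (show 0 ≤ M by linarith)]
  choose K k0 k1 using fun s : Bool × Bool => g2 _ _ (hM' s.1) (hM' s.2)
  refine ⟨∑ s, K s, Finset.sum_pos (fun s _ => k0 s) Finset.univ_nonempty, fun x hx => ?_⟩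
  have hs : ∀ t : ℝ, ∃ s : Bool, 0 ≤ (if s then M else -M) * t := fun t =>
    (le_total 0 t).elim (fun j => ⟨true, by simpa using mul_nonneg (by linarith) j⟩)
      fun j => ⟨false, by simpa using mul_nonpos_of_nonneg_of_nonpos (by linarith) j⟩
  obtain ⟨s, s1⟩ := hs (x p)
  obtain ⟨s', s2⟩ := hs (x q)
  have k2 := k1 (s, s')
  have k3 : K (s, s') ≤ ∑ s, K s :=
    Finset.single_le_sum (fun s _ => (k0 s).le) (Finset.mem_univ _)
  have ha := hM' s
  have hb := hM' s'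
  generalize (if s then M else -M) = a at *
  generalize (if s' then M else -M) = b at *
  have g3 : ∀ {a α t : ℝ}, |a| = M → 0 ≤ a * t → 0 ≤ α * a → 0 ≤ α * t := fun {a α t} j0 j1 j2 =>
    nonneg_of_mul_nonneg_left (show 0 ≤ α * t * a ^ 2 by nlinarith [mul_nonneg j1 j2])
      (sq_pos_of_ne_zero (abs_pos.1 (by linarith)))
  have g4 : ∀ α β, 0 ≤ α * a → 0 ≤ β * b → ‖x‖ ^ 2 + (α ^ 2 + β ^ 2) ≤ ‖x + vv p q α β‖ ^ 2 :=
    fun α β j1 j2 => by rw [norm_vv h]; linarith [g3 ha s1 j1, g3 hb s2 j2]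
  have g5 : ∀ y, pd p (pd q fun y => Φ a b (y - x)) y = pd p (pd q (Φ a b)) (y - x) := fun y => by
    rw [← pd_translate]
    exact congrArg (pd p · y) (funext fun _ => pd_translate x q)
  refine ⟨fun y => Φ a b (y - x), (f1 a b).comp (contDiff_id.sub contDiff_const), fun y hy => ?_,
    fun y => ⟨(k2 _).1.trans k3, by rw [fderiv_comp_sub]; exact (k2 _).2.1.trans k3,
      by rw [g5]; exact (k2 _).2.2.trans k3⟩, fun u η hu u1 u2 => ?_⟩
  · have j0 : (fun y => Φ a b (y - x)) =ᶠ[𝓝 y] fun _ => 0 := by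
      filter_upwards [(isClosed_Icc (a := 1 + 3 * δ / 4) (b := 3 * M + 1 / 4)).isOpen_compl.preimage
        continuous_norm |>.mem_nhds (show ‖y‖ ∉ Icc _ _ from fun j =>
          hy ⟨by linarith [j.1], by linarith [j.2]⟩)] with z hz
      refine of_not_not fun j => hz ?_
      obtain ⟨α, β, j1, j2, j3⟩ := f2 a b _ j
      rw [sub_sub] at j3
      have j4 := (sq_le_sq₀ (norm_nonneg _) (norm_nonneg _)).1
        ((le_add_of_nonneg_right (by positivity)).trans (g4 α β j1.1 j2.1))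
      have j5 := abs_le.1 ((abs_norm_sub_norm_le _ _).trans j3)
      have j6 := g1 α β (ha ▸ j1.2) (hb ▸ j2.2)
      exact ⟨by linarith [hx.1, j5.1], by linarith [hx.2, j5.2, norm_add_le x (vv p q α β)]⟩
    refine ⟨j0.self_of_nhds, by rw [j0.fderiv_eq, fderiv_fun_const]; rfl, ?_⟩
    rw [pd_congr (pd_congr_ev j0 q), show pd q (fun _ : E n => (0 : ℝ)) = fun _ => 0 from
      funext (pd_const 0 q), pd_const]
  · have i1 := fun α β => (avg (k := 1) (η := η) h1 h2 h3 h4 hu (x + vv p q α β)).1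
    have i2 := (avg h1 h2 h3 h4 hu (x + vv p q 0 0)).2 fun y hy =>
      u1 y (le_trans (show ‖y - x‖ ≤ e by
        rwa [show vv p q 0 0 = 0 by ext k; simp [vv], add_zero] at hy) e1)
    have i3 : ∀ α β, 0 ≤ α * a → 0 ≤ β * b → M ^ 2 ≤ α ^ 2 + β ^ 2 →
        |(∫ y, u y * ρ (y - (x + vv p q α β))) - 1| ≤ η := fun α β j1 j2 j3 =>
      (avg h1 h2 h3 h4 hu _).2 fun y hy => u2 y (by
        have j4 := (sq_le_sq₀ (by linarith) (norm_nonneg _)).1
          (j3.trans ((le_add_of_nonneg_left (sq_nonneg _)).trans (g4 α β j1 j2)))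
        linarith [(abs_le.1 ((abs_norm_sub_norm_le _ _).trans hy)).1])
    have a2 : a ^ 2 = M ^ 2 := by rw [← ha, sq_abs]
    have b2 : b ^ 2 = M ^ 2 := by rw [← hb, sq_abs]
    have i4 := abs_le.1 (i3 a 0 (mul_self_nonneg a) (zero_mul b).ge (by simp [a2]))
    have i5 := abs_le.1 (i3 0 b (zero_mul a).ge (mul_self_nonneg b) (by simp [b2]))
    have i6 := abs_le.1 (i3 a b (mul_self_nonneg a) (mul_self_nonneg b) (by
      rw [a2]; exact le_add_of_nonneg_right (sq_nonneg b)))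
    simp only [g5, f3, sub_sub _ x, mul_add, mul_sub]
    rw [integral_add (((i1 0 0).sub' (i1 a 0)).sub' (i1 0 b)) (i1 a b),
      integral_sub ((i1 0 0).sub' (i1 a 0)) (i1 0 b), integral_sub (i1 0 0) (i1 a 0)]
    exact fin4 (abs_le.1 i2) i4 i5 i6

end Vale.Agent.P366Z.Stb
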