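import Vale.Agent.P366Z.Stb.Sk
import Vale.Agent.P366Z.Sk

/-!
# P366Z, block STAB: the normalisation
-/

open MeasureTheory Metric Filter Topology Set
open scoped ContDiff ENNReal
open Vale.Agent.P366.Stmt

noncomputable section

namespace Vale.Agent.P366Z.Stb

namespace ScX

variable {n : ℕ} {f v : E n → ℝ} {x : E n} {r a : ℝ}

theorem fd_scale {V : Type} [NormedAddCommGroup V] [NormedSpace ℝ V] {y : E n → V}
    (hy : DifferentiableAt ℝ y (r • x)) (w : E n) :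
    fderiv ℝ (fun z => y (r • z)) x w = r • fderiv ℝ y (r • x) w := by
  have h := hy.hasFDerivAt.comp x ((hasFDerivAt_id x).const_smul r)
  have e : fderiv ℝ (fun z => y (r • z)) x = _ := h.fderiv
  rw [e]
  simp

theorem sm_scale (hf : Smooth f) (r : ℝ) : Smooth fun z => f (r • z) :=
  ContDiff.comp hf (contDiff_id.const_smul r)

theorem pd_scale (hf : Smooth f) (r : ℝ) (i : Fin n) (x : E n) :
    pd i (fun z => f (r • z)) x = r * pd i f (r • x) := by
  rw [pd_eq ((sm_scale hf r).diff x), pd_eq (hf.diff _), fd_scale (hf.diff _), smul_eq_mul]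

theorem lap_scale (hf : Smooth f) (r : ℝ) (x : E n) :
    lap (eu n) (fun z => f (r • z)) x = r ^ 2 * lap (eu n) f (r • x) := by
  rw [lap_eu, lap_eu, Finset.mul_sum]
  refine Finset.sum_congr rfl fun i _ => ?_
  have e : pd i (fun z => f (r • z)) = fun z => r * pd i f (r • z) := funext (pd_scale hf r i)
  rw [e, pd_const_mul, pd_scale (hf.pd i)]
  ring

theorem lint_scale (hr : 0 < r) (G : E n → ℝ≥0∞) :
    ∫⁻ x in {x : E n | 1 ≤ ‖x‖}, G (r • x) =
      ENNReal.ofReal (r ^ n)⁻¹ * ∫⁻ x in {x : E n | r ≤ ‖x‖}, G x := by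
  have m : ∀ s : ℝ, MeasurableSet {x : E n | s ≤ ‖x‖} := fun s =>
    (isClosed_le continuous_const continuous_norm).measurableSet
  have h1 := lintegral_map_equiv (μ := (volume : Measure (E n)))
    ({x : E n | r ≤ ‖x‖}.indicator G) (MeasurableEquiv.smul₀ r hr.ne')
  have h2 : Measure.map (MeasurableEquiv.smul₀ r hr.ne') (volume : Measure (E n)) =
      ENNReal.ofReal |(r ^ Module.finrank ℝ (E n))⁻¹| • volume :=
    Measure.map_addHaar_smul volume hr.ne'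
  rw [h2, lintegral_smul_measure, lintegral_indicator (m r), finrank_euclideanSpace_fin,
    abs_of_pos (by positivity), smul_eq_mul] at h1
  rw [h1, ← lintegral_indicator (m 1)]
  refine lintegral_congr fun x => ?_
  have e : r ≤ ‖r • x‖ ↔ 1 ≤ ‖x‖ := by
    rw [norm_smul, Real.norm_of_nonneg hr.le]
    exact le_mul_iff_one_le_right hr
  simp only [indicator, mem_ofPred_eq, MeasurableEquiv.coe_smul₀, e]

/-- a positive function that is the identity on `[1 / 8, ∞)` -/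
def th (t : ℝ) : ℝ :=
  Real.smoothTransition (16 * t - 1) * t + (1 - Real.smoothTransition (16 * t - 1))

theorem th_sm : ContDiff ℝ ∞ th := by
  have h : ContDiff ℝ ∞ fun t : ℝ => Real.smoothTransition (16 * t - 1) :=
    Real.smoothTransition.contDiff.comp ((contDiff_const.mul contDiff_id).sub contDiff_const)
  exact (h.mul contDiff_id).add (contDiff_const.sub h)

theorem th_eq {t : ℝ} (h : 1 / 8 ≤ t) : th t = t := by
  rw [th, Real.smoothTransition.one_of_one_le (by linarith)]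
  ring

theorem th_pos (t : ℝ) : 0 < th t := by
  rcases le_or_gt t (1 / 16) with h | h
  · rw [th, Real.smoothTransition.zero_of_nonpos (by linarith)]
    norm_num
  · have h0 := Real.smoothTransition.nonneg (16 * t - 1)
    have h1 := Real.smoothTransition.le_one (16 * t - 1)
    rw [th]
    nlinarith

theorem asy_scale {u : E n → ℝ} {β : ℝ} (hr : 1 ≤ r) (ha : 0 < a) (h : Asy v a β)
    (e1 : ∀ x, 1 ≤ ‖x‖ → u x = v (r • x) / a)
    (e2 : ∀ x, 1 ≤ ‖x‖ → ∀ i, pd i u x = r / a * pd i v (r • x)) :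
    Asy u 1 (β * r ^ (2 - n : ℝ) / a) := by
  obtain ⟨C, R, h⟩ := h
  have r0 : 0 < r := one_pos.trans_le hr
  refine ⟨C * r ^ (1 - n : ℝ) / a, max 1 R, fun x hx => ?_⟩
  have x1 : 1 ≤ ‖x‖ := (le_max_left _ _).trans hx
  have nx : ‖r • x‖ = r * ‖x‖ := by rw [norm_smul, Real.norm_of_nonneg r0.le]
  obtain ⟨h1, h2⟩ := h (r • x) (((le_max_right _ _).trans hx).trans
    (nx ▸ le_mul_of_one_le_left (norm_nonneg _) hr))
  simp only [nx, Real.mul_rpow r0.le (norm_nonneg x)] at h1 h2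
  have p1 : r ^ (1 - n : ℝ) = r * r ^ (-n : ℝ) := by
    rw [sub_eq_add_neg, Real.rpow_add r0, Real.rpow_one]
  have p2 : r ^ (2 - n : ℝ) = r ^ 2 * r ^ (-n : ℝ) := by
    rw [sub_eq_add_neg, Real.rpow_add r0, Real.rpow_two]
  refine ⟨?_, fun i => ?_⟩
  · have e : u x - 1 - β * r ^ (2 - n : ℝ) / a * ‖x‖ ^ (2 - n : ℝ) =
        (v (r • x) - a - β * (r ^ (2 - n : ℝ) * ‖x‖ ^ (2 - n : ℝ))) / a := by
      rw [e1 x x1]
      field_simp
    rw [e, abs_div, abs_of_pos ha, div_mul_eq_mul_div, mul_assoc]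
    exact div_le_div_of_nonneg_right h1 ha.le
  · have e : pd i u x + (n - 2) * (β * r ^ (2 - n : ℝ) / a) * x i * ‖x‖ ^ (-n : ℝ) = r / a *
        (pd i v (r • x) + (n - 2) * β * (r • x) i * (r ^ (-n : ℝ) * ‖x‖ ^ (-n : ℝ))) := by
      rw [e2 x x1, p2, PiLp.smul_apply, smul_eq_mul]
      ring
    rw [e, abs_mul, abs_of_pos (div_pos r0 ha)]
    refine (mul_le_mul_of_nonneg_left (h2 i) (div_pos r0 ha).le).trans (le_of_eq ?_)
    rw [p1]
    ring

theorem df_scale {N : ℕ} (c : Cl n N) {u : E n → ℝ} {y : E n → E N} (hy : ContDiff ℝ ∞ y)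
    (ha : a ≠ 0) (e1 : u x = v (r • x) / a) (e2 : ∀ i, pd i u x = r / a * pd i v (r • x))
    (i : Fin n) : c.df u (fun z => y (r • z)) i x = r • c.df v y i (r • x) := by
  have e3 : ∑ j, pd j u x • c.e j (y (r • x)) =
      (r / a) • ∑ j, pd j v (r • x) • c.e j (y (r • x)) := by
    rw [Finset.smul_sum]
    exact Finset.sum_congr rfl fun j _ => by rw [e2, mul_smul]
  have e4 : (((n : ℝ) - 2) * (v (r • x) / a))⁻¹ * (r / a) = r * (((n : ℝ) - 2) * v (r • x))⁻¹ := by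
    rw [← mul_div_assoc ((n : ℝ) - 2), inv_div, div_mul_div_comm, mul_comm a,
      mul_div_mul_right _ _ ha, div_eq_mul_inv]
  rw [Cl.df, Cl.df, fd_scale (hy.differentiable (by simp) _), e3, map_smul, e1, e2,
    mul_left_comm (n : ℝ) (r / a), mul_smul (r / a), ← smul_add, smul_smul, e4, smul_sub, smul_smul]

theorem par_scale {u : E n → ℝ} {R e : ℝ} (hn : 3 ≤ n) (hR : 1 ≤ R) (hr : R ≤ r) (ha : 0 < a)
    (he : 0 ≤ e) (h : Par v R (e * a ^ (-bb n) * R ^ (n - 2 : ℝ)))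
    (h0 : ∀ x, R ≤ ‖x‖ → 0 ≤ v x) (e1 : ∀ x, 1 ≤ ‖x‖ → u x = v (r • x) / a)
    (e2 : ∀ x, 1 ≤ ‖x‖ → ∀ i, pd i u x = r / a * pd i v (r • x)) : Par u 1 e := by
  obtain ⟨N, c, y, y₀, hy, n0, ⟨R', h1⟩, h2⟩ := h
  have r1 : 1 ≤ r := hR.trans hr
  have r0 : 0 < r := one_pos.trans_le r1
  have nx : ∀ x : E n, ‖r • x‖ = r * ‖x‖ := fun x => by rw [norm_smul, Real.norm_of_nonneg r0.le]
  refine ⟨N, c, fun z => y (r • z), y₀, hy.comp (contDiff_id.const_smul r), n0,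
    ⟨R', fun x hx => h1 _ (hx.trans (nx x ▸ le_mul_of_one_le_left (norm_nonneg _) r1))⟩, ?_⟩
  obtain ⟨G, hG⟩ : ∃ G : E n → ℝ≥0∞,
      G = fun x => ENNReal.ofReal (v x ^ (-bb n) * ∑ i, ‖c.df v y i x‖ ^ 2) := ⟨_, rfl⟩
  have p0 : 0 < a ^ bb n := Real.rpow_pos_of_pos ha _
  have h3 : ∫⁻ x in {x : E n | 1 ≤ ‖x‖}, ENNReal.ofReal (u x ^ (-bb n) *
      ∑ i, ‖c.df u (fun z => y (r • z)) i x‖ ^ 2) =
      ∫⁻ x in {x : E n | 1 ≤ ‖x‖}, ENNReal.ofReal (a ^ bb n * r ^ 2) * G (r • x) := by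
    refine setLIntegral_congr_fun (isClosed_le continuous_const continuous_norm).measurableSet
      fun x hx => ?_
    have v0 := h0 (r • x) (hr.trans (nx x ▸ le_mul_of_one_le_right r0.le hx))
    simp only [hG, df_scale c hy ha.ne' (e1 x hx) (e2 x hx), norm_smul, mul_pow, Real.norm_eq_abs,
      sq_abs, ← Finset.mul_sum]
    rw [← ENNReal.ofReal_mul (by positivity), e1 x hx, Real.div_rpow v0 ha.le,
      Real.rpow_neg ha.le, div_inv_eq_mul]
    exact congrArg _ (by ring)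
  have h4 : ∫⁻ x in {x : E n | r ≤ ‖x‖}, G x ≤
      ENNReal.ofReal (e * a ^ (-bb n) * R ^ (n - 2 : ℝ)) :=
    (lintegral_mono_set fun x (hx : r ≤ ‖x‖) => (hr.trans hx : R ≤ ‖x‖)).trans (hG ▸ h2)
  rw [h3, lintegral_const_mul' _ _ ENNReal.ofReal_ne_top, lint_scale r0]
  refine (mul_le_mul_right (mul_le_mul_right h4 _) _).trans ?_
  rw [← ENNReal.ofReal_mul (by positivity), ← ENNReal.ofReal_mul (by positivity)]
  refine ENNReal.ofReal_le_ofReal ?_
  have h5 : R ^ (n - 2 : ℝ) ≤ r ^ n / r ^ 2 := by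
    rw [← Real.rpow_natCast, ← Real.rpow_two, ← Real.rpow_sub r0]
    exact Real.rpow_le_rpow (by linarith) hr (nm2_pos hn).le
  have h6 := mul_le_mul_of_nonneg_left h5 (by positivity : 0 ≤ e * r ^ 2 / r ^ n)
  rw [Real.rpow_neg ha.le]
  calc _ = e * r ^ 2 / r ^ n * R ^ (n - 2 : ℝ) := by field_simp
    _ ≤ _ := h6
    _ = e := by field_simp

end ScX

open ScX in
theorem stab_of1 (h : STAB1) : STAB := by
  intro n C₀ δ η hn hδ hη
  obtain ⟨d, d0, d1, d2⟩ : ∃ d : ℝ, 0 < d ∧ d ≤ 1 ∧ d ≤ δ :=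
    ⟨min δ 1, lt_min hδ one_pos, min_le_right _ _, min_le_left _ _⟩
  obtain ⟨e, e0, h⟩ := h n C₀ (d / 3) η hn (by positivity) hη
  refine ⟨e, e0, fun v a β R S hR ha hv hS hb hA hP x hx => ?_⟩
  obtain ⟨r, hr⟩ : ∃ r, r = (1 + d / 3) * R := ⟨_, rfl⟩
  have r2 : R < r := by rw [hr]; nlinarith
  have r1 : 1 ≤ r := hR.trans r2.le
  have r0 : 0 < r := one_pos.trans_le r1
  have nx : ∀ x : E n, ‖r • x‖ = r * ‖x‖ := fun x => by rw [norm_smul, Real.norm_of_nonneg r0.le]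
  have big : ∀ x : E n, 1 ≤ ‖x‖ → R < ‖r • x‖ := fun x hx =>
    r2.trans_le (nx x ▸ le_mul_of_one_le_right r0.le hx)
  obtain ⟨u, hu⟩ : ∃ u : E n → ℝ, u = fun x => th (v (r • x) / a) := ⟨_, rfl⟩
  have su : Smooth u := hu ▸ th_sm.comp ((sm_scale hv r).div_const a)
  have ev : ∀ x : E n, 1 ≤ ‖x‖ → u =ᶠ[𝓝 x] fun z => a⁻¹ * v (r • z) := fun x hx => by
    have o : IsOpen {z : E n | R < ‖r • z‖} :=
      isOpen_lt continuous_const (continuous_id.const_smul r).norm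
    filter_upwards [o.mem_nhds (big x hx)] with z hz
    rw [hu]
    beta_reduce
    rw [th_eq ((le_div_iff₀ ha).2 (by linarith [(hb _ (le_of_lt hz)).1])), div_eq_inv_mul]
  have e1 : ∀ x, 1 ≤ ‖x‖ → u x = v (r • x) / a := fun x hx => by
    rw [(ev x hx).self_of_nhds, div_eq_inv_mul]
  have e2 : ∀ x, 1 ≤ ‖x‖ → ∀ i, pd i u x = r / a * pd i v (r • x) := fun x hx i => by
    rw [pd_congr (ev x hx), pd_const_mul, pd_scale hv]
    ring
  have k := h u _ su (fun x => by rw [hu]; exact th_pos _) (fun x hx => ?_)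
    (asy_scale r1 ha hA e1 e2) (par_scale hn hR r2.le ha e0.le hP
      (fun x hx => by linarith [(hb x hx).1]) e1 e2) (r⁻¹ • x) ?_
  · have x1 : 1 ≤ ‖r⁻¹ • x‖ := by
      rw [norm_smul, Real.norm_of_nonneg (inv_pos.2 r0).le, ← div_eq_inv_mul, one_le_div r0, hr]
      nlinarith
    rw [e1 _ x1, smul_inv_smul₀ r0.ne', div_sub_one ha.ne', abs_div, abs_of_pos ha,
      div_le_iff₀ ha] at k
    exact k
  · obtain ⟨b1, b2, b3⟩ := hb _ (big x hx).le
    refine ⟨?_, ?_, ?_⟩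
    · rw [e1 x hx, le_div_iff₀ ha]
      linarith
    · rw [e1 x hx, div_le_iff₀ ha]
      exact b2
    · have p0 : 0 < ‖x‖ ^ (-(n + 2) : ℝ) := Real.rpow_pos_of_pos (by linarith) _
      have p1 : r ^ 2 * r ^ (-(n + 2) : ℝ) ≤ 1 := by
        rw [← Real.rpow_two, ← Real.rpow_add r0]
        exact Real.rpow_le_one_of_one_le_of_nonpos r1 (by linarith [Nat.cast_nonneg (α := ℝ) n])
      have p2 : 0 < r ^ (-(n + 2) : ℝ) := Real.rpow_pos_of_pos r0 _
      rw [nx, Real.mul_rpow r0.le (norm_nonneg x)] at b3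
      have b4 := b3.trans (mul_le_mul_of_nonneg_right hS (mul_pos p2 p0).le)
      rw [lap_congr (ev x hx), lap_const_mul, lap_scale hv, abs_mul, abs_mul,
        abs_of_pos (inv_pos.2 ha), abs_of_pos (pow_pos r0 2), inv_mul_le_iff₀ ha]
      have b5 := mul_le_mul_of_nonneg_left b4 (pow_pos r0 2).le
      have b6 := mul_le_mul_of_nonneg_left p1 (by positivity : 0 ≤ a * (e * ‖x‖ ^ (-(n + 2) : ℝ)))
      linarith
  · rw [norm_smul, Real.norm_of_nonneg (inv_pos.2 r0).le, ← div_eq_inv_mul, le_div_iff₀ r0, hr]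
    have : (1 + d / 3) * (1 + d / 3) ≤ 1 + δ := by nlinarith
    nlinarith

end Vale.Agent.P366Z.Stb
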