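import Vale.Agent.P366Z.Int

/-!
# P366Z, block STAB: statements of the rows
-/

open MeasureTheory Metric Filter Topology Set
open scoped ContDiff ENNReal
open Vale.Agent.P366.Stmt

noncomputable section

namespace Vale.Agent.P366Z.Stb

variable {n N : ℕ}

/-- the derivative in a coordinate direction of a vector valued function -/
def vd (i : Fin n) (s : E n → E N) (x : E n) : E N := fderiv ℝ s x (EuclideanSpace.single i 1)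

/-- the squared defect of the twistor equation -/
def tw (c : Cl n N) (s t : E n → E N) (x : E n) : ℝ := ∑ i, ‖vd i s x + c.e i (t x)‖ ^ 2

/-- the closed shell -/
def sh (n : ℕ) (a b : ℝ) : Set (E n) := {x | a ≤ ‖x‖ ∧ ‖x‖ ≤ b}

/-- the twistor spinor -/
def ss (v : E n → ℝ) (y : E n → E N) (x : E n) : E N := v x ^ (-(n * bb n / 2)) • y x

/-- its companion -/
def tt (c : Cl n N) (v : E n → ℝ) (y : E n → E N) (x : E n) : E N :=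
  -((((n : ℝ) - 2) * v x)⁻¹ • ∑ j, pd j v x • c.e j (ss v y x))

/-- the smooth measure of the length -/
def ww (v : E n → ℝ) (y : E n → E N) (x : E n) : ℝ := √(‖ss v y x‖ ^ 2 / v x ^ (-bb n) + 1) - √2

/-- **TW**: the mixed second derivative of the squared length of an almost twistor spinor -/
def TW : Prop := ∃ C > (0 : ℝ), ∀ (n N : ℕ) (c : Cl n N) (p q r : Fin n) (s t : E n → E N)
  (ψ : E n → ℝ) (l : ℝ), p ≠ q → p ≠ r → q ≠ r → ContDiff ℝ ∞ s → ContDiff ℝ ∞ t → Smooth ψ →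
  HasCompactSupport ψ → 0 < l → l ≤ 1 → |∫ x, ‖s x‖ ^ 2 * pd p (pd q ψ) x| ≤
    ∫ x, C * (|ψ x| + ‖fderiv ℝ ψ x‖) * (tw c s t x / l + l * (‖s x‖ ^ 2 + ‖t x‖ ^ 2))

/-- **HD**: the inequality of Hardy outside a ball -/
def HD : Prop := ∀ (n : ℕ) (δ M : ℝ), 3 ≤ n → 0 < δ → ∃ C > (0 : ℝ), ∀ (w : E n → ℝ) (e : ℝ),
  Smooth w → 0 ≤ e → (∃ A R : ℝ, ∀ x, R ≤ ‖x‖ → |w x| ≤ A * ‖x‖ ^ (2 - n : ℝ)) →
  ∫⁻ x in {x : E n | 1 ≤ ‖x‖}, ENNReal.ofReal (‖fderiv ℝ w x‖ ^ 2) ≤ ENNReal.ofReal e →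
  ∫ x in sh n (1 + δ) M, w x ^ 2 ≤ C * e

/-- **RC**: the test function of a rectangle with three far corners -/
def RC : Prop := ∀ (n : ℕ) (p q : Fin n) (δ M ε : ℝ), p ≠ q → 0 < δ → 1 ≤ M → 0 < ε →
  ∃ C > (0 : ℝ), ∀ x ∈ sh n (1 + δ) M, ∃ ψ : E n → ℝ, Smooth ψ ∧
    (∀ y, y ∉ sh n (1 + δ / 2) (4 * M) → ψ y = 0 ∧ fderiv ℝ ψ y = 0 ∧ pd p (pd q ψ) y = 0) ∧
    (∀ y, |ψ y| ≤ C ∧ ‖fderiv ℝ ψ y‖ ≤ C ∧ |pd p (pd q ψ) y| ≤ C) ∧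
    ∀ (u : E n → ℝ) (η : ℝ), Continuous u → (∀ y, ‖y - x‖ ≤ ε → |u y - u x| ≤ η) →
      (∀ y, M / 2 ≤ ‖y‖ → |u y - 1| ≤ η) → |u x - 1| ≤ |∫ y, u y * pd p (pd q ψ) y| + 4 * η

/-- **PT**: the pointwise identities -/
def PT : Prop := ∀ (n N : ℕ) (c : Cl n N) (v : E n → ℝ) (y : E n → E N), 3 ≤ n → Smooth v →
  (∀ x, 0 < v x) → ContDiff ℝ ∞ y → ContDiff ℝ ∞ (ss v y) ∧ ContDiff ℝ ∞ (tt c v y) ∧
    Smooth (ww v y) ∧ (∀ x,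
      tw c (ss v y) (tt c v y) x = v x ^ (-(2 * gam n)) * (v x ^ (-bb n) * ∑ i, ‖c.df v y i x‖ ^ 2) ∧
      ‖fderiv ℝ (ww v y) x‖ ^ 2 ≤ (v x ^ 2)⁻¹ * (v x ^ (-bb n) * ∑ i, ‖c.df v y i x‖ ^ 2) ∧
      ‖tt c v y x‖ ≤ n * (v x)⁻¹ * ‖fderiv ℝ v x‖ * ‖ss v y x‖ ∧
      ‖ss v y x‖ ^ 2 = v x ^ (-bb n) * (1 + ww v y x ^ 2 + 2 * √2 * ww v y x)) ∧
    ∀ (β : ℝ) (y₀ : E N), Asy v 1 β → ‖y₀‖ = 1 → (∃ R' : ℝ, ∀ x, R' ≤ ‖x‖ → y x = y₀) →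
      ∃ A R : ℝ, ∀ x, R ≤ ‖x‖ → |ww v y x| ≤ A * ‖x‖ ^ (2 - n : ℝ)

/-- **STAB1**: the normalised statement -/
def STAB1 : Prop := ∀ (n : ℕ) (C₀ δ η : ℝ), 3 ≤ n → 0 < δ → 0 < η → ∃ e > (0 : ℝ),
  ∀ (v : E n → ℝ) (β : ℝ), Smooth v → (∀ x, 0 < v x) →
    (∀ x, 1 ≤ ‖x‖ → 1 / 8 ≤ v x ∧ v x ≤ C₀ ∧ |lap (eu n) v x| ≤ e * ‖x‖ ^ (-(n + 2) : ℝ)) →
    Asy v 1 β → Par v 1 e → ∀ x, 1 + δ ≤ ‖x‖ → |v x - 1| ≤ η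

end Vale.Agent.P366Z.Stb
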