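import Vale.Agent.P366Z.Stb.Sk

/-!
# P366Z, block STAB: almost twistor spinors (row TW)
-/

open MeasureTheory Metric Filter Topology Set
open scoped ContDiff InnerProductSpace
open Vale.Agent.P366.Stmt

noncomputable section

namespace Vale.Agent.P366Z.Stb

namespace TwH

variable {n N : ℕ} (c : Cl n N) {i j : Fin n} {s t u w : E n → E N} {ψ φ B f g : E n → ℝ}
  {k k' l : ℝ}

theorem ee (i : Fin n) (v : E N) : c.e i (c.e i v) = -v := by
  have h := c.rel i i v
  rw [if_pos rfl, ← two_smul ℝ, neg_smul, ← smul_neg] at h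
  exact smul_right_injective _ two_ne_zero h

theorem anti (h : i ≠ j) (v : E N) : c.e i (c.e j v) = -c.e j (c.e i v) :=
  eq_neg_of_add_eq_zero_left ((c.rel i j v).trans (if_neg h))

theorem nrm_e (i : Fin n) (v : E N) : ‖c.e i v‖ = ‖v‖ := by
  rw [← sq_eq_sq₀ (norm_nonneg _) (norm_nonneg _), ← real_inner_self_eq_norm_sq, c.skew, ee,
    inner_neg_right, neg_neg, real_inner_self_eq_norm_sq]

theorem orth (h : i ≠ j) (v : E N) : ⟪c.e i v, c.e j v⟫_ℝ = 0 := by
  have h1 := c.skew i v (c.e j v)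
  have h2 := c.skew j v (c.e i v)
  rw [anti c h, inner_neg_right] at h1
  rw [real_inner_comm] at h2
  linarith

theorem vd_sm (hs : ContDiff ℝ ∞ s) (i : Fin n) : ContDiff ℝ ∞ (vd i s) :=
  (hs.fderiv_right (m := ∞) le_rfl).clm_apply contDiff_const

theorem df (hs : ContDiff ℝ ∞ s) (x : E n) : DifferentiableAt ℝ s x :=
  hs.differentiable (by simp) x

theorem vd_comm (hs : ContDiff ℝ ∞ s) (i j : Fin n) (x : E n) :
    vd i (vd j s) x = vd j (vd i s) x := by
  have h : ∀ i j, vd i (vd j s) x =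
      fderiv ℝ (fderiv ℝ s) x (EuclideanSpace.single i 1) (EuclideanSpace.single j 1) := by
    intro i j
    unfold vd
    rw [fderiv_clm_apply ((hs.fderiv_right (m := ∞) le_rfl).differentiable (by simp) x)
      (differentiableAt_const _)]
    simp
  rw [h, h]
  exact ((hs.contDiffAt.of_le (m := 2) (by norm_cast)).isSymmSndFDerivAt (by simp)).eq _ _

theorem vd_clm (L : E N →L[ℝ] E N) (hu : ContDiff ℝ ∞ u) (i : Fin n) (x : E n) :
    vd i (fun y => L (u y)) x = L (vd i u x) :=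
  DFunLike.congr_fun (L.hasFDerivAt.comp x (df hu x).hasFDerivAt).fderiv _

/-- the integral of `f` is bounded by the integral of `B` -/
structure Ok (B : E n → ℝ) (k : ℝ) (f : E n → ℝ) : Prop where
  int : Integrable f
  le : |∫ x, f x| ≤ k * ∫ x, B x

theorem Ok.add (h : Ok B k f) (h' : Ok B k' g) : Ok B (k + k') fun x => f x + g x :=
  ⟨h.int.add h'.int, by
    rw [integral_add h.int h'.int, add_mul]
    exact (abs_add_le _ _).trans (add_le_add h.le h'.le)⟩

theorem Ok.sub (h : Ok B k f) (h' : Ok B k' g) : Ok B (k + k') fun x => f x - g x :=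
  ⟨h.int.sub h'.int, by
    rw [integral_sub h.int h'.int, add_mul]
    exact (abs_sub _ _).trans (add_le_add h.le h'.le)⟩

theorem ok_div (B : E n → ℝ) (hu : ContDiff ℝ ∞ u) (hw : ContDiff ℝ ∞ w) (hφ : Smooth φ)
    (hc : HasCompactSupport φ) (i : Fin n) : Ok B 0 fun x =>
      (⟪u x, vd i w x⟫_ℝ + ⟪vd i u x, w x⟫_ℝ) * φ x + ⟪u x, w x⟫_ℝ * pd i φ x := by
  have h1 : Smooth fun x => ⟪u x, w x⟫_ℝ := hu.inner ℝ hw
  have h2 : Smooth fun x => ⟪u x, w x⟫_ℝ * φ x := ContDiff.mul h1 hφ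
  have h3 : HasCompactSupport fun x => ⟪u x, w x⟫_ℝ * φ x := hc.mul_left
  have h4 : Lip _ := lip_of_supp (ContDiff.of_le h2 (by norm_cast)) h3
  obtain ⟨R, -, e⟩ := out_of_supp h3
  have h5 : pd i (fun x => ⟪u x, w x⟫_ℝ * φ x) = fun x =>
      (⟪u x, vd i w x⟫_ℝ + ⟪vd i u x, w x⟫_ℝ) * φ x + ⟪u x, w x⟫_ℝ * pd i φ x := funext fun x => by
    rw [pd_mul (h1.diff x) (hφ.diff x), pd_eq (h1.diff x), fderiv_inner_apply ℝ (df hu x) (df hw x)]
    rfl
  rw [← h5]
  exact ⟨by simpa only [one_mul] using h4.integrable_pd e (continuous_const (y := 1)) i,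
    by rw [integral_pd h4 h3, abs_zero, zero_mul]⟩

/-- the bound -/
def bd (s t : E n → E N) (ψ : E n → ℝ) (l : ℝ) (x : E n) : ℝ :=
  (|ψ x| + ‖fderiv ℝ ψ x‖) * (tw c s t x / l + l * (‖s x‖ ^ 2 + ‖t x‖ ^ 2))

/-- the defect -/
def ef (s t : E n → E N) (i : Fin n) (x : E n) : E N := vd i s x + c.e i (t x)

theorem ef_le (s t : E n → E N) (i : Fin n) (x : E n) : ‖ef c s t i x‖ ^ 2 ≤ tw c s t x :=
  Finset.single_le_sum (f := fun i => ‖ef c s t i x‖ ^ 2) (fun _ _ => sq_nonneg _)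
    (Finset.mem_univ i)

theorem tw_nonneg (s t : E n → E N) (x : E n) : 0 ≤ tw c s t x :=
  Finset.sum_nonneg fun _ _ => sq_nonneg _

variable {c} (hs : ContDiff ℝ ∞ s) (ht : ContDiff ℝ ∞ t) (hψ : Smooth ψ) (hc : HasCompactSupport ψ)
  (h0 : 0 < l) (h1 : l ≤ 1)
include hs ht

theorem ef_sm (i : Fin n) : ContDiff ℝ ∞ (ef c s t i) :=
  (vd_sm hs i).add ((c.e i).contDiff.comp ht)

theorem vd_ef (i j : Fin n) (x : E n) :
    vd i (ef c s t j) x = vd i (vd j s) x + c.e j (vd i t x) := by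
  rw [← vd_clm _ ht]
  exact DFunLike.congr_fun (fderiv_fun_add (df (vd_sm hs j) x)
    (df ((c.e j).contDiff.comp ht) x)) _

include hψ hc h0 h1

theorem ok_pt (hu : Continuous u) (hw : Continuous w) (hφ : φ = ψ ∨ φ = pd i ψ)
    (ku : ∀ x, ‖u x‖ ^ 2 ≤ 2 * (tw c s t x + (‖s x‖ ^ 2 + ‖t x‖ ^ 2)))
    (kw : ∀ x, ‖w x‖ ^ 2 ≤ tw c s t x) : Ok (bd c s t ψ l) 2 fun x => ⟪u x, w x⟫_ℝ * φ x := by
  have h2 : Integrable (bd c s t ψ l) := Continuous.integrable_of_hasCompactSupport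
    ((hψ.cont.abs.add (ContDiff.continuous_fderiv hψ (by simp)).norm).mul
      (((continuous_finsetSum _ fun i _ => (ef_sm hs ht i).continuous.norm.pow 2).div_const l).add
        (continuous_const.mul ((hs.continuous.norm.pow 2).add (ht.continuous.norm.pow 2)))))
    (HasCompactSupport.add hc.abs (hc.fderiv ℝ).norm).mul_right
  have h3 : ∀ x, ‖⟪u x, w x⟫_ℝ * φ x‖ ≤ 2 * bd c s t ψ l x := fun x => by
    have k1 : ‖φ x‖ ≤ |ψ x| + ‖fderiv ℝ ψ x‖ := by
      rcases hφ with rfl | rfl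
      · exact le_add_of_nonneg_right (norm_nonneg _)
      · exact (abs_pd_le (hψ.diff x) i).trans (le_add_of_nonneg_left (abs_nonneg _))
    have k2 := tw_nonneg c s t x
    have k3 : ‖u x‖ * ‖w x‖ ≤ 2 * (tw c s t x / l + l * (‖s x‖ ^ 2 + ‖t x‖ ^ 2)) := by
      rw [← mul_le_mul_iff_right₀ h0, mul_left_comm l 2, mul_add l (_ / _), mul_div_cancel₀ _ h0.ne']
      nlinarith [sq_nonneg (l * ‖u x‖ - ‖w x‖), mul_le_mul_of_nonneg_left (ku x) (sq_nonneg l),
        kw x, mul_le_of_le_one_left k2 (pow_le_one₀ h0.le h1 : l ^ 2 ≤ 1),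
        mul_nonneg (sq_nonneg l) (add_nonneg (sq_nonneg ‖s x‖) (sq_nonneg ‖t x‖))]
    rw [norm_mul, bd, mul_left_comm, mul_comm]
    exact mul_le_mul k1 ((norm_inner_le_norm _ _).trans k3) (norm_nonneg _) (by positivity)
  have h4 : Continuous φ := by
    rcases hφ with rfl | rfl
    · exact hψ.cont
    · exact (hψ.pd i).cont
  refine ⟨(h2.const_mul 2).mono' ((hu.inner hw).mul h4).aestronglyMeasurable (.of_forall h3), ?_⟩
  rw [← integral_const_mul]
  exact norm_integral_le_of_norm_le (h2.const_mul 2) (.of_forall h3)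

theorem ok_six (L : E N →L[ℝ] E N) (hL : ∀ v, ‖L v‖ = ‖v‖) (i j : Fin n) :
    Ok (bd c s t ψ l) (0 + 2 + 2) fun x => ⟪s x, L (vd i (ef c s t j) x)⟫_ℝ * ψ x := by
  have h2 : ContDiff ℝ ∞ fun x => L (ef c s t j x) := L.contDiff.comp (ef_sm hs ht j)
  have h3 : ∀ x, ‖L (ef c s t j x)‖ ^ 2 ≤ tw c s t x := fun x => by
    rw [hL]
    exact ef_le c s t j x
  have h4 := ((ok_div _ hs h2 hψ hc i).sub (ok_pt hs ht hψ hc h0 h1 (i := i) (vd_sm hs i).continuous
    h2.continuous (.inl rfl) (fun x => ?_) h3)).sub (ok_pt hs ht hψ hc h0 h1 (i := i) hs.continuous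
      h2.continuous (.inr rfl) (fun x => by
        linarith [tw_nonneg c s t x, sq_nonneg ‖s x‖, sq_nonneg ‖t x‖]) h3)
  · simpa only [vd_clm L (ef_sm hs ht j), add_mul, add_sub_right_comm _ (⟪s _, _⟫_ℝ * pd i ψ _),
      add_sub_cancel_right, sub_add_cancel] using h4
  · have k := norm_sub_le (ef c s t i x) (c.e i (t x))
    rw [nrm_e, ef, add_sub_cancel_right, ← ef] at k
    nlinarith [ef_le c s t i x, pow_le_pow_left₀ (norm_nonneg _) k 2, sq_nonneg ‖s x‖,
      sq_nonneg (‖ef c s t i x‖ - ‖t x‖)]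

end TwH

open TwH

/-- **row TW** -/
theorem tw0 : TW := by
  refine ⟨32, by norm_num, fun n N c p q r s t ψ l e1 e2 e3 hs ht hψ hc h0 h1 => ?_⟩
  have a1 := ok_pt (c := c) hs ht hψ hc h0 h1 (i := q) hs.continuous (ef_sm hs ht p).continuous
    (.inr rfl) (fun x => by linarith [tw_nonneg c s t x, sq_nonneg ‖s x‖, sq_nonneg ‖t x‖])
    (ef_le c s t p)
  have a2 := ok_pt (c := c) hs ht hψ hc h0 h1 (i := q) (u := fun x => c.e p (t x))
    ((c.e p).continuous.comp ht.continuous) (ef_sm hs ht q).continuous (.inl rfl)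
    (fun x => by rw [nrm_e]; linarith [tw_nonneg c s t x, sq_nonneg ‖s x‖, sq_nonneg ‖t x‖])
    (ef_le c s t q)
  have a3 := ok_div (bd c s t ψ l) hs (w := fun x => c.e p (t x)) ((c.e p).contDiff.comp ht) hψ hc q
  have a4 := ok_six (c := c) hs ht hψ hc h0 h1 (.id ℝ _) fun _ => rfl
  have a5 := fun i => ok_six (c := c) hs ht hψ hc h0 h1 ((c.e i).comp (c.e r)) fun v =>
    (nrm_e c i _).trans (nrm_e c r v)
  obtain ⟨R, -, e⟩ := out_of_supp hc
  have h := ((((((((((((ok_div _ hs hs (hψ.pd q) (supp_of_out (R := R + 1) fun y hy =>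
    pd_zero_of_out e (by linarith) q) p).sub a1).sub a1).add a3).add a3).sub a2).sub a2).sub
      (a4 q p)).add (a4 p q)).add (a5 p q r)).sub (a5 p r q)).add (a5 q p r)).sub (a5 q r p)
  refine (congrArg abs (integral_congr_ae (.of_forall fun x => ?_))).trans_le (h.le.trans_eq ?_)
  · have k1 := orth c e1 (t x)
    have k2 : c.e p (c.e r (c.e q (vd r t x))) = -c.e q (c.e r (c.e p (vd r t x))) := by
      rw [anti c e2, anti c e3, anti c e1, neg_neg, map_neg, neg_neg]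
    simp only [vd_ef hs ht, vd_clm _ ht, vd_comm hs q p, vd_comm hs r q, vd_comm hs r p, ef,
      ContinuousLinearMap.id_apply, ContinuousLinearMap.comp_apply, map_add, ee, map_neg, k2,
      inner_add_right, inner_neg_right, real_inner_comm (s x) (vd p s x),
      real_inner_comm (c.e p (t x)) (vd q s x), k1, real_inner_self_eq_norm_sq]
    ring
  · simp only [mul_assoc]
    rw [integral_const_mul]
    norm_num [bd]

end Vale.Agent.P366Z.Stb
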